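import Vale.Agent.P216.V706.B1.TwRel
import Vale.Agent.P216.V651.Pol
import Vale.Agent.P216.V775.Kos

/-!
# P216-V, D4: the core
-/

open Polynomial
open Vale.Agent.P216.V609 Vale.Agent.P216.V651

namespace Vale.Agent.P216.V706

section

variable {k A A' : Type*} [Field k] [Ring A] [Algebra k A] [Ring A'] [Algebra k A']

/-- Acyclicity passes to retracts. -/
theorem Acy.of_retract {C : Cdga k A} {C' : Cdga k A'} (φ : Cdga.Hom C C') (ψ : Cdga.Hom C' C)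
    (h : ∀ a, ψ.f (φ.f a) = a) {n : ℕ} (hC : Acy C' n) : Acy C n := by
  intro j hj hjn z hz
  have := ψ.map_B (hC j hj hjn (φ.map_Z hz))
  rwa [h] at this

/-- Small degrees of `C [b]`. -/
theorem pol_low (C : Cdga k A) {m : ℕ} (hm : Even m) (h2 : (2 : k) ≠ 0) {y : A}
    (hy : y ∈ C.deg (m + 1)) (hdy : C.d y = 0) {n : ℕ} (hn : n < m) {p : A[X]}
    (hp : p ∈ (pol C hm h2 hy hdy).deg n) : ∃ a ∈ C.deg n, p = Polynomial.C a := by
  have h0 : ∀ i, 1 ≤ i → p.coeff i = 0 := by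
    intro i hi
    rcases C.mem_degS (hp i) with h | ⟨j, h, -⟩
    · exact h
    · have : m ≤ i * m := Nat.le_mul_of_pos_left m hi
      omega
  refine ⟨p.coeff 0, ?_, ?_⟩
  · have := hp 0
    rwa [Nat.zero_mul, degS_zero] at this
  · ext i
    rcases i with _ | i
    · rw [coeff_C_zero]
    · rw [coeff_C_succ, h0 _ (by omega)]

theorem mem_Z_C (C : Cdga k A) {m : ℕ} (hm : Even m) (h2 : (2 : k) ≠ 0) {y : A}
    (hy : y ∈ C.deg (m + 1)) (hdy : C.d y = 0) {n : ℕ} {a : A} (ha : a ∈ C.Z n) :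
    Polynomial.C a ∈ (pol C hm h2 hy hdy).Z n := (polInl C hm h2 hy hdy).map_Z ha

theorem Acy.of_pol (C : Cdga k A) {m : ℕ} (hm : Even m) (h2 : (2 : k) ≠ 0) {y : A}
    (hy : y ∈ C.deg (m + 1)) (hdy : C.d y = 0) (h : Acy (pol C hm h2 hy hdy) (m + 1)) :
    Acy C (m + 1) := by
  intro j hj hjn z hz
  obtain ⟨i, rfl⟩ : ∃ i, j = i + 1 := ⟨j - 1, by omega⟩
  obtain ⟨p, hp, h1⟩ := (pol C hm h2 hy hdy).mem_B_succ.1
    (h _ hj hjn (mem_Z_C C hm h2 hy hdy hz))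
  obtain ⟨a, ha, rfl⟩ := pol_low C hm h2 hy hdy (by omega) hp
  refine ⟨a, ha, ?_⟩
  rw [pol_d, pd_C] at h1
  exact C_injective h1

theorem not_mem_of_pol [Nontrivial A] (C : Cdga k A) {m : ℕ} (hm0 : 0 < m) (hm : Even m)
    (h2 : (2 : k) ≠ 0) {y : A} (hy : y ∈ C.deg (m + 1)) (hdy : C.d y = 0)
    (h : Acy (pol C hm h2 hy hdy) (m + 1)) : y ∉ C.B (m + 1) := by
  intro hB
  obtain ⟨a, ha, h1⟩ := C.mem_B_succ.1 hB
  obtain ⟨i, rfl⟩ : ∃ i, m = i + 1 := ⟨m - 1, by omega⟩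
  obtain ⟨p, hp, h3⟩ := (pol C hm h2 hy hdy).mem_B_succ.1
    (h (i + 1) (by omega) (by omega) (show (X - Polynomial.C a : A[X]) ∈ _ from
      ⟨Submodule.sub_mem _ (X_mem C hm h2 hy hdy) (C_mem C ha), by
        show pd C y (X - Polynomial.C a) = 0
        rw [map_sub, pd_X, pd_C, h1, sub_self]⟩))
  obtain ⟨b, hb, rfl⟩ := pol_low C hm h2 hy hdy (by omega) hp
  rw [pol_d, pd_C] at h3
  have h4 := congrArg (fun p => p.coeff 1) h3
  simp at h4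

theorem pol_zero (C : Cdga k A) {m : ℕ} (hm0 : 0 < m) (hm : Even m) (h2 : (2 : k) ≠ 0) {y : A}
    (hy : y ∈ C.deg (m + 1)) (hdy : C.d y = 0) (h0 : ∀ a ∈ C.Z 0, ∃ c : k, a = c • 1)
    {p : A[X]} (hp : p ∈ (pol C hm h2 hy hdy).Z 0) : ∃ c : k, p = c • 1 := by
  obtain ⟨a, ha, rfl⟩ := pol_low C hm h2 hy hdy hm0 hp.1
  have h1 : pd C y (Polynomial.C a) = 0 := hp.2
  rw [pd_C] at h1
  obtain ⟨c, rfl⟩ := h0 a ⟨ha, C_injective (h1.trans (map_zero _).symm)⟩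
  exact ⟨c, by
    ext i
    rw [coeff_smul, coeff_C, coeff_one]
    split_ifs <;> simp⟩

end

section

variable {k A A' : Type*} [Field k] [Ring A] [Algebra k A] [Ring A'] [Algebra k A']
  {S : Cdga k A} {C : Cdga k A'}

/-- **The core.** -/
theorem core (φ : Cdga.Hom S C) {m n : ℕ} (hm0 : 0 < m) (hm : Even m) (hmn : m + 1 ≤ n)
    (h2 : (2 : k) ≠ 0) (hφ : RelLt φ n) {a : A'} {s : A} (hN : New φ n a s) {b₁ : A}
    (hb₁ : b₁ ∈ S.deg (m + 1)) (db₁ : S.d b₁ = 0) {F : A} (hF : F ∈ S.deg n) (dF : S.d F = s)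
    (hacy : Acy (pol S hm h2 hb₁ db₁) n) (h0 : ∀ z ∈ S.Z 0, ∃ c : k, z = c • 1) {c₁ : A'}
    (hc₁ : c₁ ∈ C.deg (m + 1)) (dc₁ : C.d c₁ = 0) (hbc : φ.f b₁ = c₁) {c₂ : A'}
    (hc₂ : c₂ = a - φ.f F) :
    Acy (pol C hm h2 hc₁ dc₁) n ∧ Polynomial.C c₂ ∉ (pol C hm h2 hc₁ dc₁).B n ∧
      Acy C (m + 1) ∧ c₁ ∉ C.B (m + 1) ∧ (∀ z ∈ C.Z 0, ∃ c : k, z = c • 1) ∧
      ∀ z ∈ (pol C hm h2 hc₁ dc₁).Z 0, ∃ c : k, z = c • 1 := by
  have hψ := relLt_pol φ hm h2 hb₁ db₁ hc₁ dc₁ hbc hφ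
  have hA : Acy (pol C hm h2 hc₁ dc₁) n := Acy.of_rel hψ hacy
  have hA' : Acy (pol C hm h2 hc₁ dc₁) (m + 1) := fun j hj hjm => hA j hj (by omega)
  have hNm : a - φ.f F ∉ C.B n := hN.not_mem hF dF
  have hnt : Nontrivial A' := by
    by_contra h
    rw [not_nontrivial_iff_subsingleton] at h
    refine hNm ?_
    rw [Subsingleton.elim (a - φ.f F) 0]
    exact Submodule.zero_mem _
  have hZ0 : ∀ z ∈ C.Z 0, ∃ c : k, z = c • 1 := by
    intro z hz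
    obtain ⟨z', hz', h1⟩ := hφ.surj (q := 0) (by omega) hz
    obtain ⟨c, rfl⟩ := h0 z' hz'
    refine ⟨c, ?_⟩
    have h3 : z - φ.f (c • 1) = 0 := h1
    rw [map_smul, map_one] at h3
    exact sub_eq_zero.1 h3
  refine ⟨hA, ?_, Acy.of_pol C hm h2 hc₁ dc₁ hA', not_mem_of_pol C hm0 hm h2 hc₁ dc₁ hA', hZ0,
    fun z hz => pol_zero C hm0 hm h2 hc₁ dc₁ hZ0 hz⟩
  have h3 := new_pol φ hm h2 hb₁ db₁ hc₁ dc₁ hbc hφ hN
  have h4 := h3.not_mem (t := Polynomial.C F) (C_mem S hF) (by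
    show pd S b₁ (Polynomial.C F) = _
    rw [pd_C, dF])
  intro h5
  refine h4 ?_
  have h6 : Polynomial.C a - (polMap φ hm h2 hb₁ db₁ hc₁ dc₁ hbc).f (Polynomial.C F) =
      Polynomial.C c₂ := by
    rw [polMap_apply, hc₂, map_sub, coe_mapAlgHom, map_C]
    rfl
  rw [h6]
  exact h5

end

/-! ### Two towers over the same system are isomorphic -/

section

universe u v w'

open Vale.Agent.P216.V775

variable {k : Type w'} [Field k] {σ : Type} [Fintype σ] [DecidableEq σ] {w : σ → ℕ} {f : ℕ}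
  {Q : σ → MvPolynomial σ k} {q : σ → σ → MvPolynomial σ k}

omit [DecidableEq σ] in
theorem solOn_empty {X : CD.{u} k} (S : KS X w f Q) (e : σ → X.A) : SolOn S q ∅ e :=
  ⟨fun j hj => absurd hj (Finset.notMem_empty j), fun j hj => absurd hj (Finset.notMem_empty j)⟩

omit [Fintype σ] [DecidableEq σ] in
theorem dn_empty (w : σ → ℕ) : Dn w ∅ := fun j hj => absurd hj (Finset.notMem_empty j)

theorem KTw_iso (hq : QD w f Q q) {X : CD.{u} k} {S : KS X w f Q} {e e' : σ → X.A} {T T' : Tw X}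
    {ê : σ → T.top.A} {ê' : σ → T'.top.A} (h : KTw q S ∅ e T ê) (h' : KTw q S ∅ e' T' ê') :
    ∃ (θ : T.top.Hm T'.top) (θ' : T'.top.Hm T.top), (∀ a, θ'.f (θ.f a) = a) ∧
      (∀ a, θ.f (θ'.f a) = a) ∧ (∀ a, θ.f (T.inc.f a) = T'.inc.f a) ∧ ∀ j, θ.f (ê j) = ê' j := by
  have s1 := h.sol hq (dn_empty w) (solOn_empty S e)
  have s2 := h'.sol hq (dn_empty w) (solOn_empty S e')
  obtain ⟨θ, h1, h2⟩ := h.lift hq T'.inc s2 (fun j hj => absurd hj (Finset.notMem_empty j))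
  obtain ⟨θ', h3, h4⟩ := h'.lift hq T.inc s1 (fun j hj => absurd hj (Finset.notMem_empty j))
  refine ⟨θ, θ', fun a => ?_, fun a => ?_, h1, h2⟩
  · exact h.lift_unique (φ := θ'.comp θ) (ψ := Cdga.Hom.id _)
      (fun b => (congrArg θ'.f (h1 b)).trans (h3 b))
      (fun j => (congrArg θ'.f (h2 j)).trans (h4 j)) a
  · exact h'.lift_unique (φ := θ.comp θ') (ψ := Cdga.Hom.id _)
      (fun b => (congrArg θ.f (h3 b)).trans (h1 b))
      (fun j => (congrArg θ.f (h4 j)).trans (h2 j)) a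

end

end Vale.Agent.P216.V706
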