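import Vale.Agent.P216.V706.B1.Semi
import Vale.Agent.P216.V994.Pair

/-!
# P216-V, D4: the theorem
-/

open MvPolynomial
open Vale.Agent.P216.V609 Vale.Agent.P216.V651 Vale.Agent.P216.V775 Vale.Agent.P216.V921
open Vale.Agent.P216.H285V (toDga)
open Vale.Agent.P216.V994 (Base Kz PD Pair pairOf)

universe v w'

namespace Vale.Agent.P216.V706

variable {k : Type w'} [Field k] [CharZero k] {X : CD.{v} k} {f₂ : ℕ}
  (T₀ : Two (toDga (two_ne_zero (α := k)) X.C) f₂)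

/-- the polynomial data of the tower -/
theorem Two.qd : QD T₀.w T₀.f T₀.Q (V994.OfTwo.Q1 T₀) where
  two := two_ne_zero
  pos := T₀.w_pos
  fpos := T₀.f_pos
  hQ := V994.OfTwo.hQ T₀
  wq := V994.OfTwo.wQ1 T₀

/-- **D4**, for every Koszul tower over the data of `T₀`. -/
theorem Two.d4 {Q : T₀.σ → MvPolynomial T₀.σ k} (hq : QD T₀.w T₀.f Q (V994.OfTwo.Q1 T₀))
    {S : KS X T₀.w T₀.f Q} (hSx : ∀ j, S.x j = T₀.x j) (hSy : S.y = V994.OfTwo.y₀ T₀)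
    {e : T₀.σ → X.A} {T : Tw X} {ê : T₀.σ → T.top.A} (h : KTw (V994.OfTwo.Q1 T₀) S ∅ e T ê)
    (s : ((pairOf T₀).map T.inc).K) (hs : ∀ j, s.u j = ê j) :
    D4 T.top.C (two_ne_zero (α := k)) T₀.f f₂ (((pairOf T₀).map T.inc).b₁ s)
      (((pairOf T₀).map T.inc).b₂ s) := by
  obtain rfl : Q = T₀.Q := funext fun j => by rw [hq.hQ, T₀.qd.hQ]
  -- the tower over the piece
  let D := T₀.dat
  have hq' : QD D.w D.f D.Q (V994.OfTwo.Q1 T₀) := T₀.qd
  let S₀ := pKS D rfl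
  obtain ⟨TS, êS, hS, hsol⟩ := exists_KTw hq' S₀
  let φ : D.cd.Hm X := T₀.phi
  let BS : Base D.cdga D.w D.f :=
    { x := cen D.cd S₀.x S₀.hx
      x_mem := S₀.hx
      y := S₀.y
      y_mem := S₀.hy
      dy := S₀.dy }
  let KSS : Kz (BS.map TS.inc) (V994.OfTwo.Q1 T₀) := Kz.ofEq T₀.w_pos êS
    (fun j => hsol.mem j (Finset.mem_univ j)) (fun j => hsol.eq j (Finset.mem_univ j))
  have hprim : ∀ {N : ℕ} {P : MvPolynomial T₀.σ k}
      (p : PD T₀.w T₀.f (N + 1) (V994.OfTwo.Q1 T₀) P),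
      TS.top.C.d (KSS.prim p) = TS.inc.f (TrivSqZeroExt.inl P) := by
    intro N P p
    rw [KSS.d_prim p T₀.w_pos]
    refine (BS.map_ev TS.inc P).trans ?_
    congr 1
    exact ev_xx (fun _ => rfl) P
  have h4 := D4_push T₀ hq' (fun _ => rfl) hS (F₁ := KSS.prim (V994.OfTwo.pd₁ T₀))
    (F₂ := KSS.prim (V994.OfTwo.pd₂ T₀)) (KSS.prim_mem _ T₀.w_pos) (hprim _) (fun D' π hπ => ?_)
    (KSS.prim_mem _ T₀.w_pos) (hprim _)
  swap
  · let t : Kz ((BS.map TS.inc).map π) (V994.OfTwo.Q1 T₀) :=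
      KSS.map T₀.w_pos π (fun _ => rfl) rfl
    rw [Kz.map_prim π KSS t (V994.OfTwo.pd₁ T₀) rfl (fun _ => rfl)]
    exact t.prim_zero _ hπ
  -- comparison of the towers
  have hSφ : S = S₀.map φ := by
    refine KS.ext' (fun j => ?_) ?_
    · rw [hSx]
      exact (T₀.phi_xx j).symm
    · rw [hSy]
      change _ = T₀.phi.f S₀.y
      rw [V994.OfTwo.y₀]
      split_ifs with h0
      · rw [pKS_y_zero D rfl h0]
        exact T₀.phi_yy.symm
      · rw [pKS_y_ne D rfl h0, map_zero]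
  subst hSφ
  obtain ⟨θ, θ', h5, h6, h7, h8⟩ := KTw_iso hq (hS.push₀ φ) h
  have hy : (θ.comp (TS.map φ)).f (BS.map TS.inc).y = ((pairOf T₀).map T.inc).B.y := by
    change θ.f ((TS.map φ).f (TS.inc.f S₀.y)) = T.inc.f (V994.OfTwo.y₀ T₀)
    rw [TS.map_inc φ, h7]
    congr 1
  refine h4.iso θ θ' h5 h6 ?_ ?_
  · rw [map_sub, h7]
    change _ = T.inc.f T₀.y - s.prim (V994.OfTwo.pd₁ T₀)
    congr 1
    exact Kz.map_prim (θ.comp (TS.map φ)) KSS s _ hy (fun j => (h8 j).trans (hs j).symm)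
  · rw [map_sub, h7]
    change _ = T.inc.f T₀.y₂ - s.prim (V994.OfTwo.pd₂ T₀)
    congr 1
    exact Kz.map_prim (θ.comp (TS.map φ)) KSS s _ hy (fun j => (h8 j).trans (hs j).symm)

end Vale.Agent.P216.V706
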