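import Vale.Agent.P216.V706.B1.Final
import Vale.Agent.P216.V994.PTw

/-!
# P216-V, D4 in the form of 775's towers of pairs
-/

open MvPolynomial
open Vale.Agent.P216.V609 Vale.Agent.P216.V651 Vale.Agent.P216.V775
open Vale.Agent.P216.H285V (toDga)
open Vale.Agent.P216.V994 (Base Kz PD Pair pairOf)

universe u v w'

namespace Vale.Agent.P216.V706

variable {k : Type w'} [Field k] [CharZero k] {X : CD.{v} k}

/-- **D4** for the towers of 994's pair. -/
theorem Two.d4_ptw {f₂ : ℕ} (T₀ : Two (toDga (two_ne_zero (α := k)) X.C) f₂) {T : Tw X}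
    {ê : T₀.σ → T.top.A} (h : PTw (pairOf T₀) T ê) :
    D4 T.top.C (two_ne_zero (α := k)) T₀.f f₂ h.y₁ h.y₂ :=
  T₀.d4 (qd_pair (pairOf T₀)) (S := ofPair (pairOf T₀)) (fun _ => rfl) rfl h h.Kh fun _ => rfl

end Vale.Agent.P216.V706
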