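import Vale.Agent.P216.V706.B1.Rel
import Vale.Agent.P216.V775.Tower

/-!
# P216-V, B1: relative cohomology of towers
-/

namespace Vale.Agent.P216.V706

universe u v w

open Vale.Agent.P216.V609 Vale.Agent.P216.V775

section

variable {k : Type w} [Field k]

theorem RelLt.map {X : CD.{u} k} {Y : CD.{v} k} (T : Tw X) (φ : X.Hm Y) {n : ℕ}
    (h : RelLt φ n) : RelLt (T.map φ) n := by
  induction T generalizing Y with
  | nil X => exact h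
  | cons X l hl x hx hdx T ih =>
    exact ih (φ.ex hl hx hdx) (h.ex φ hl hx hdx (φ.deg hx) (φ.d_eq hdx) rfl)

theorem New.map {X : CD.{u} k} {Y : CD.{v} k} (T : Tw X) (φ : X.Hm Y) {n : ℕ}
    (h : RelLt φ n) {a : Y.A} {s : X.A} (hN : New φ n a s) :
    New (T.map φ) n ((T.push φ).inc.f a) (T.inc.f s) := by
  induction T generalizing Y with
  | nil X => exact hN
  | cons X l hl x hx hdx T ih =>
    exact ih (φ.ex hl hx hdx) (h.ex φ hl hx hdx (φ.deg hx) (φ.d_eq hdx) rfl)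
      (New.ex φ hl hx hdx (φ.deg hx) (φ.d_eq hdx) rfl h hN)

theorem QIso.map {X : CD.{u} k} {Y : CD.{v} k} (T : Tw X) (φ : X.Hm Y)
    (h : QIso φ) : QIso (T.map φ) := by
  induction T generalizing Y with
  | nil X => exact h
  | cons X l hl x hx hdx T ih =>
    exact ih (φ.ex hl hx hdx) (h.ex φ hl hx hdx (φ.deg hx) (φ.d_eq hdx) rfl)

end

section

variable {k : Type*} [Field k] {A A' : Type*} [Ring A] [Algebra k A]
  [Ring A'] [Algebra k A'] {S : Cdga k A} {C : Cdga k A'}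

/-- The two formulations of bijectivity in a range. -/
theorem RelLt.of_inj_surj {φ : Cdga.Hom S C} {m : ℕ}
    (inj : ∀ q, q ≤ m + 1 → ∀ z ∈ S.Z q, φ.f z ∈ C.B q → z ∈ S.B q)
    (surj : ∀ q, q ≤ m → ∀ z' ∈ C.Z q, ∃ z ∈ S.Z q, z' - φ.f z ∈ C.B q) :
    RelLt φ (m + 1) := by
  refine ⟨fun s hs h0 h1 => inj 0 (Nat.zero_le _) s ⟨hs, h0⟩ h1, fun i hi a ha s hs had h0 => ?_⟩
  obtain ⟨t₀, ht₀, h1⟩ := S.mem_B_succ.1 (inj (i + 1) (by omega) s ⟨hs, h0⟩ ⟨a, ha, had⟩)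
  obtain ⟨z, hz, h2⟩ := surj i (by omega) (a - φ.f t₀) ⟨Submodule.sub_mem _ ha (φ.deg ht₀), by
    show C.d (a - φ.f t₀) = 0
    rw [map_sub, had, ← φ.d, h1, sub_self]⟩
  have hz2 : S.d z = 0 := hz.2
  refine ⟨t₀ + z, Submodule.add_mem _ ht₀ hz.1, by rw [map_add, h1, hz2, add_zero], ?_⟩
  rw [map_add, ← sub_sub]
  exact h2

theorem RelLt.inj {φ : Cdga.Hom S C} {n : ℕ} (h : RelLt φ n) {q : ℕ} (hq : q ≤ n) {z : A}
    (hz : z ∈ S.Z q) (hB : φ.f z ∈ C.B q) : z ∈ S.B q := by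
  rcases q with _ | q
  · exact h.1 z hz.1 hz.2 hB
  · obtain ⟨a, ha, h1⟩ := C.mem_B_succ.1 hB
    obtain ⟨t, ht, h2, -⟩ := h.2 q (by omega) a ha z hz.1 h1 hz.2
    exact ⟨t, ht, h2⟩

theorem RelLt.surj {φ : Cdga.Hom S C} {n : ℕ} (h : RelLt φ n) {q : ℕ} (hq : q < n) {z' : A'}
    (hz : z' ∈ C.Z q) : ∃ z ∈ S.Z q, z' - φ.f z ∈ C.B q := by
  have hz2 : C.d z' = 0 := hz.2
  obtain ⟨t, ht, h0, h1⟩ := h.2 q hq z' hz.1 0 (Submodule.zero_mem _) (by rw [hz2, map_zero])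
    (map_zero _)
  exact ⟨t, ⟨ht, h0⟩, h1⟩

end

end Vale.Agent.P216.V706
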