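import Vale.Agent.P216.V706.Main
import Vale.Agent.P216.V706.B1.TwRel
import Vale.Agent.P216.V921.Piece
import Vale.Agent.P216.H285V.Colim

/-!
# P216-V, B1: the morphism from the piece `k[x] ⊗ Λ(y)`
-/

open MvPolynomial TrivSqZeroExt
open Vale.Agent.P216.V609 Vale.Agent.P216.V921
open Vale.Agent.P216.H285V (toDga)

namespace Vale.Agent.P216.V706

variable {k A : Type*} [Field k] [Ring A] [Algebra k A] {C : Cdga k A} {h2 : (2 : k) ≠ 0} {m : ℕ}

theorem mem_hp_even {σ : Type} {w : σ → ℕ} {e : ℕ} {R : MvPolynomial σ k} :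
    R ∈ hp k w ∅ 0 (2 * e) ↔ IsWeightedHomogeneous w R e := by
  constructor
  · intro h d hd
    have := (h d (mem_support_iff.2 hd)).1
    omega
  · intro h d hd
    have := h (mem_support_iff.1 hd)
    exact ⟨by omega, fun j hj => hj.elim⟩

theorem mem_hp_odd {σ : Type} {w : σ → ℕ} {e f : ℕ} {R : MvPolynomial σ k} :
    R ∈ hp k w ∅ (2 * f + 1) (2 * e + 1) ↔
      R = 0 ∨ f ≤ e ∧ IsWeightedHomogeneous w R (e - f) := by
  classical
  constructor
  · intro h
    rcases eq_or_ne R 0 with h0 | h0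
    · exact Or.inl h0
    · obtain ⟨d, hd⟩ := Finset.nonempty_iff_ne_empty.2 (fun h1 => h0 (support_eq_empty.1 h1))
      have h1 := (h d hd).1
      refine Or.inr ⟨by omega, fun d' hd' => ?_⟩
      have := (h d' (mem_support_iff.2 hd')).1
      omega
  · rintro (rfl | ⟨h0, h⟩)
    · exact Submodule.zero_mem _
    · intro d hd
      have := h (mem_support_iff.1 hd)
      exact ⟨by omega, fun j hj => hj.elim⟩

/-- The data of the piece. -/
def Pre.dat (S : Pre (toDga h2 C) m) : Dat k S.σ where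
  w := S.w
  w_pos := S.w_pos
  f := S.f
  f_pos := S.f_pos
  J := ∅
  P := S.P
  P_mem := by
    have := mem_hp_even.2 S.P_hom
    rwa [show 2 * (S.f + 1) = 2 * S.f + 2 by ring] at this
  Q := S.Q
  Q_mem := fun j => by
    rcases Nat.le_total (S.w j) S.f with h | h
    · rw [S.Q_zero j h]
      exact Submodule.zero_mem _
    · refine hp_congr (mem_hp_even.2 (S.Q_hom j)) (by omega)
  Q_zero := S.Q_zero
  Q_J := fun j hj => hj.elim
  PQ := S.PQ

variable (S : Pre (toDga h2 C) m)

theorem Pre.yy : S.y * S.y = 0 := C.sq_odd h2 S.y_mem ⟨S.f, rfl⟩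

/-- The underlying algebra map. -/
noncomputable def Pre.phiA : Dat.Car k S.σ →ₐ[k] A :=
  TrivSqZeroExt.lift (ev S.x) (LinearMap.mulLeft k S.y ∘ₗ (ev S.x).toLinearMap)
    (fun a b => by
      change S.y * ev S.x a * (S.y * ev S.x b) = 0
      rw [mul_assoc, ← mul_assoc (ev S.x a), ev_comm S.x a S.y, mul_assoc, ← mul_assoc, S.yy,
        zero_mul])
    (fun a b => by
      change S.y * ev S.x (a • b) = ev S.x a * (S.y * ev S.x b)
      rw [smul_eq_mul, map_mul, ← mul_assoc, ← ev_comm S.x a S.y, mul_assoc])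
    (fun a b => by
      change S.y * ev S.x (MulOpposite.op a • b) = S.y * ev S.x b * ev S.x a
      rw [MulOpposite.smul_eq_mul_unop, MulOpposite.unop_op, map_mul, mul_assoc])

theorem Pre.phiA_apply (a : Dat.Car k S.σ) :
    S.phiA a = ev S.x a.fst + S.y * ev S.x a.snd := by
  rw [Pre.phiA, TrivSqZeroExt.lift_def]
  rfl

theorem Pre.sg_y : C.sg S.y = -S.y := C.sg_of_odd S.y_mem ⟨S.f, rfl⟩

/-- **The morphism from the piece.** -/
noncomputable def Pre.phi : Cdga.Hom S.dat.cdga C where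
  f := S.phiA
  deg {p a} ha := by
    obtain ⟨h1, h3⟩ := ha
    rw [S.phiA_apply]
    rcases Nat.even_or_odd' p with ⟨e, rfl | rfl⟩
    · have h4 : a.snd = 0 := S.dat.dg_even ⟨h1, h3⟩ (even_two_mul e)
      rw [h4, map_zero, mul_zero, add_zero]
      exact (toDga h2 C).ev_mem S.x_mem (mem_hp_even.1 h1)
    · have h4 : a.fst = 0 := S.dat.dg_odd ⟨h1, h3⟩ (by simp)
      rw [h4, map_zero, zero_add]
      rcases mem_hp_odd.1 h3 with h5 | ⟨h5, h6⟩
      · rw [h5, map_zero, mul_zero]
        exact Submodule.zero_mem _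
      · have h7 := C.mul_mem S.y_mem ((toDga h2 C).ev_mem S.x_mem h6)
        have h8 : 2 * S.f + 1 + 2 * (e - S.f) = 2 * e + 1 := by
          have : S.f ≤ e := h5
          omega
        change S.y * ev S.x a.snd ∈ C.deg (2 * S.f + 1 + 2 * (e - S.f)) at h7
        rwa [h8] at h7
  sg a := by
    change S.phiA (Dat.sgn a) = C.sg (S.phiA a)
    have h3 := (toDga h2 C).sg_ev S.x_mem
    change ∀ R, C.sg (ev S.x R) = ev S.x R at h3
    rw [S.phiA_apply, S.phiA_apply, map_add, map_mul, h3, h3, S.sg_y, Dat.sgn_fst, Dat.sgn_snd,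
      map_neg, mul_neg, neg_mul]
  d a := by
    change S.phiA (S.dat.dd a) = C.d (S.phiA a)
    have h3 := (toDga h2 C).d_ev S.x_mem S.d_x
    change ∀ R, C.d (ev S.x R) = S.y * ev S.x (mkDerivation k S.Q R) at h3
    have h4 : C.d S.y = ev S.x S.P := S.d_y
    rw [S.phiA_apply, S.phiA_apply, map_add, C.leib, h3, h3, S.sg_y, h4, Dat.dd_fst, Dat.dd_snd,
      map_mul, neg_mul, ← mul_assoc S.y S.y, S.yy, zero_mul, neg_zero, add_zero, add_comm]
    rfl

theorem Pre.phi_apply (a : Dat.Car k S.σ) :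
    S.phi.f a = ev S.x a.fst + S.y * ev S.x a.snd := S.phiA_apply a

theorem Pre.relLt : RelLt S.phi (m + 1) := by
  refine RelLt.of_inj_surj (fun q hq z hz hB => ?_) (fun q hq z hz => ?_)
  · obtain ⟨⟨h1, h3⟩, h4⟩ := hz
    have h4 : S.dat.dd z = 0 := h4
    rw [S.phi_apply] at hB
    rcases Nat.even_or_odd' q with ⟨e, rfl | rfl⟩
    · have h5 : z.snd = 0 := S.dat.dg_even ⟨h1, h3⟩ (even_two_mul e)
      rw [h5, map_zero, mul_zero, add_zero] at hB
      have h6 : mkDerivation k S.Q z.fst = 0 := by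
        have := congrArg TrivSqZeroExt.snd h4
        rwa [Dat.dd_snd] at this
      have hB' : ev S.x z.fst ∈ (toDga h2 C).B (2 * e) := by
        rcases e with _ | e
        · exact hB
        · exact hB
      rcases S.injE' hq (mem_hp_even.1 h1) h6 hB' with ⟨-, h7⟩ | ⟨h7, T, hT, h8⟩
      · have : z = 0 := TrivSqZeroExt.ext h7 h5
        rw [this]
        exact Submodule.zero_mem _
      · obtain ⟨e', rfl⟩ : ∃ e', e = e' + 1 := ⟨e - 1, by omega⟩
        refine ⟨inr T, ⟨?_, ?_⟩, ?_⟩
        · rw [fst_inr]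
          exact Submodule.zero_mem _
        · rw [snd_inr]
          have h9 : T ∈ hp k S.w ∅ (2 * S.f + 1) (2 * e' + 1) :=
            mem_hp_odd.2 (Or.inr ⟨by omega, by
              rwa [show e' - S.f = e' + 1 - (S.f + 1) by omega]⟩)
          exact h9
        · refine TrivSqZeroExt.ext ?_ ?_
          · change (S.dat.dd (inr T)).fst = _
            rw [Dat.dd_fst, snd_inr, h8]
            rfl
          · change (S.dat.dd (inr T)).snd = _
            rw [Dat.dd_snd, fst_inr, map_zero, h5]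
    · have h5 : z.fst = 0 := S.dat.dg_odd ⟨h1, h3⟩ (by simp)
      rw [h5, map_zero, zero_add] at hB
      have h6 : S.P * z.snd = 0 := by
        have := congrArg TrivSqZeroExt.fst h4
        rwa [Dat.dd_fst] at this
      rcases mem_hp_odd.1 h3 with h7 | ⟨h7, h8⟩
      · have : z = 0 := TrivSqZeroExt.ext h5 h7
        rw [this]
        exact Submodule.zero_mem _
      · obtain ⟨T, hT, h9⟩ := S.injO e hq h7 z.snd h8 h6 hB
        refine ⟨inl T, ⟨?_, ?_⟩, ?_⟩
        · rw [fst_inl]
          exact mem_hp_even.2 hT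
        · rw [snd_inl]
          exact Submodule.zero_mem _
        · refine TrivSqZeroExt.ext ?_ ?_
          · change (S.dat.dd (inl T)).fst = _
            rw [Dat.dd_fst, snd_inl, mul_zero, h5]
          · change (S.dat.dd (inl T)).snd = _
            rw [Dat.dd_snd, fst_inl, h9]
            rfl
  · rcases Nat.even_or_odd' q with ⟨e, rfl | rfl⟩
    · obtain ⟨R, hR, h0, hB⟩ := S.surjE e hq z hz
      refine ⟨inl R, ⟨⟨?_, ?_⟩, ?_⟩, ?_⟩
      · rw [fst_inl]
        exact mem_hp_even.2 hR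
      · rw [snd_inl]
        exact Submodule.zero_mem _
      · change S.dat.dd (inl R) = 0
        refine TrivSqZeroExt.ext ?_ ?_
        · rw [Dat.dd_fst, snd_inl, mul_zero]
          rfl
        · rw [Dat.dd_snd, fst_inl]
          exact h0
      · rw [S.phi_apply, fst_inl, snd_inl, map_zero, mul_zero, add_zero]
        rcases e with _ | e
        · exact hB
        · exact hB
    · rcases S.surjO e hq z hz with h | ⟨hf, R, hR, h0, hB⟩
      · exact ⟨0, Submodule.zero_mem _, by
          rw [map_zero, sub_zero]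
          exact h⟩
      · refine ⟨inr R, ⟨⟨?_, ?_⟩, ?_⟩, ?_⟩
        · rw [fst_inr]
          exact Submodule.zero_mem _
        · rw [snd_inr]
          exact mem_hp_odd.2 (Or.inr ⟨hf, hR⟩)
        · change S.dat.dd (inr R) = 0
          refine TrivSqZeroExt.ext ?_ ?_
          · rw [Dat.dd_fst, snd_inr]
            exact h0
          · rw [Dat.dd_snd, fst_inr, map_zero]
            rfl
        · rw [S.phi_apply, fst_inr, snd_inr, map_zero, zero_add]
          exact hB

/-- The second odd generator is a new relative class. -/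
theorem Two.new' {f₂ : ℕ} (T : Two (toDga h2 C) f₂) :
    New T.phi (2 * f₂ + 1) T.y₂ (inl T.P₂) := by
  rintro ⟨t, ⟨h1, h3⟩, h4, h5⟩
  have h6 : t.fst = 0 := T.dat.dg_odd ⟨h1, h3⟩ (by simp)
  have h7 : T.P * t.snd = T.P₂ := by
    have := congrArg TrivSqZeroExt.fst h4
    change (T.dat.dd t).fst = _ at this
    rwa [Dat.dd_fst, fst_inl] at this
  rw [T.phi_apply, h6, map_zero, zero_add] at h5
  rcases mem_hp_odd.1 h3 with h8 | ⟨-, h8⟩
  · refine T.new ⟨0, isWeightedHomogeneous_zero _ _ _, ?_, ?_⟩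
    · rw [← h7, h8]
    · rw [h8] at h5
      exact h5
  · exact T.new ⟨t.snd, h8, h7.symm, h5⟩

end Vale.Agent.P216.V706
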