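import Vale.Agent.P216.V609.Cdga

/-!
# P216-V, B1: relative cohomology of a morphism

`Rel φ i`: `H^i(C, S) = 0` for `φ : S → C`. `RelLt φ n`: `H^i(C, S) = 0` for `i < n`
(including `i = -1`). The one-generator lemma for `S ⟨e⟩ → C ⟨e⟩`, `e` odd.
-/

namespace Vale.Agent.P216.V706

open Vale.Agent.P216.V609

variable {k : Type*} [Field k] {A₀ A A' : Type*} [Ring A₀] [Algebra k A₀] [Ring A] [Algebra k A]
  [Ring A'] [Algebra k A'] {S₀ : Cdga k A₀} {S : Cdga k A} {C : Cdga k A'}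

/-- `H^i(C, S) = 0`. -/
def Rel (φ : Cdga.Hom S C) (i : ℕ) : Prop := ∀ a ∈ C.deg i, ∀ s ∈ S.deg (i + 1),
  C.d a = φ.f s → S.d s = 0 → ∃ t ∈ S.deg i, S.d t = s ∧ a - φ.f t ∈ C.B i

/-- `H^(-1)(C, S) = 0`. -/
def Inj0 (φ : Cdga.Hom S C) : Prop := ∀ s ∈ S.deg 0, S.d s = 0 → φ.f s = 0 → s = 0

/-- `H^i(C, S) = 0` for all `i < n`. -/
def RelLt (φ : Cdga.Hom S C) (n : ℕ) : Prop := Inj0 φ ∧ ∀ i < n, Rel φ i

/-- quasi-isomorphism -/
def QIso (φ : Cdga.Hom S C) : Prop := Inj0 φ ∧ ∀ i, Rel φ i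

/-- The relative cocycle `(a, s)` is not a coboundary. -/
def New (φ : Cdga.Hom S C) (n : ℕ) (a : A') (s : A) : Prop :=
  ¬ ∃ t ∈ S.deg n, S.d t = s ∧ a - φ.f t ∈ C.B n

theorem QIso.relLt {φ : Cdga.Hom S C} (h : QIso φ) (n : ℕ) : RelLt φ n := ⟨h.1, fun i _ => h.2 i⟩

theorem QIso.of_relLt {φ : Cdga.Hom S C} (h : ∀ n, RelLt φ n) : QIso φ :=
  ⟨(h 0).1, fun i => (h (i + 1)).2 i (Nat.lt_succ_self i)⟩

theorem QIso.comp {ψ : Cdga.Hom S C} {φ : Cdga.Hom S₀ S} (hψ : QIso ψ) (hφ : QIso φ) :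
    QIso (ψ.comp φ) := by
  refine ⟨fun s hs h0 h => hφ.1 s hs h0 (hψ.1 _ (φ.deg hs) ?_ h), fun i a ha s hs h h0 => ?_⟩
  · rw [← φ.d, h0, map_zero]
  · obtain ⟨t₁, ht₁, h1, h2⟩ := hψ.2 i a ha (φ.f s) (φ.deg hs) h (by rw [← φ.d, h0, map_zero])
    obtain ⟨t, ht, h3, h4⟩ := hφ.2 i t₁ ht₁ s hs h1 h0
    refine ⟨t, ht, h3, ?_⟩
    have h5 : a - (ψ.comp φ).f t = (a - ψ.f t₁) + ψ.f (t₁ - φ.f t) := by
      rw [map_sub]
      change a - ψ.f (φ.f t) = _
      abel
    rw [h5]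
    exact Submodule.add_mem _ h2 (ψ.map_B h4)

/-- Acyclic in positive degrees. -/
def Acy (C : Cdga k A) (n : ℕ) : Prop := ∀ j, 0 < j → j < n → C.Z j ≤ C.B j

theorem Acy.of_qiso {φ : Cdga.Hom S C} (h : QIso φ) {n : ℕ} (hC : Acy C n) : Acy S n := by
  intro j hj hjn z hz
  obtain ⟨i, rfl⟩ : ∃ i, j = i + 1 := ⟨j - 1, by omega⟩
  obtain ⟨a, ha, h1⟩ := C.mem_B_succ.1 (hC _ hj hjn (φ.map_Z hz))
  obtain ⟨t, ht, h2, -⟩ := h.2 i a ha z hz.1 h1 hz.2
  exact ⟨t, ht, h2⟩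

theorem Acy.of_rel {φ : Cdga.Hom S C} {n : ℕ} (h : RelLt φ n) (hS : Acy S n) : Acy C n := by
  intro j hj hjn z hz
  have hz2 : C.d z = 0 := hz.2
  obtain ⟨t, ht, h0, h1⟩ := h.2 j hjn z hz.1 0 (Submodule.zero_mem _) (by rw [hz2, map_zero])
    (map_zero _)
  have h2 := φ.map_B (hS j hj hjn ⟨ht, h0⟩)
  rw [← sub_add_cancel z (φ.f t)]
  exact Submodule.add_mem _ h1 h2

/-- A relative coboundary criterion. -/
theorem New.not_mem {φ : Cdga.Hom S C} {n : ℕ} {a : A'} {s : A} (h : New φ n a s) {t : A}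
    (ht : t ∈ S.deg n) (hs : S.d t = s) : a - φ.f t ∉ C.B n := fun h1 => h ⟨t, ht, hs, h1⟩

section Ex

variable (φ : Cdga.Hom S C) {l : ℕ} (hl : Odd l) {x : A} (hx : x ∈ S.deg (l + 1))
  (hdx : S.d x = 0) {x' : A'} (hx' : x' ∈ C.deg (l + 1)) (hdx' : C.d x' = 0) (h : φ.f x = x')

include h in
/-- **The one-generator lemma** (odd generator). -/
theorem RelLt.ex {n : ℕ} (hφ : RelLt φ n) : RelLt (φ.exMap hl hx hdx hx' hdx' h) n := by
  have hl1 : 1 ≤ l := by
    obtain ⟨m, rfl⟩ := hl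
    omega
  refine ⟨fun s hs h0 h1 => ?_, fun i hi a ha s hs had hsd => ?_⟩
  · have hs2 : s.2 = 0 := by
      rcases S.mem_degS hs.2 with h2 | ⟨j, h2, -⟩
      · exact h2
      · omega
    have h3 : S.d s.1 = 0 := by
      have h4 := congrArg Ex.fst h0
      simpa [hs2] using h4
    have h5 := hφ.1 s.1 hs.1 h3 (congrArg Ex.fst h1)
    ext
    · exact h5
    · exact hs2
  · obtain ⟨ha1, ha2⟩ := ha
    obtain ⟨hs1, hs2⟩ := hs
    have e1 : C.d a.1 + C.sg a.2 * x' = φ.f s.1 := congrArg Ex.fst had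
    have e2 : C.d a.2 = φ.f s.2 := congrArg Ex.snd had
    have e3 : S.d s.1 + S.sg s.2 * x = 0 := congrArg Ex.fst hsd
    have e4 : S.d s.2 = 0 := congrArg Ex.snd hsd
    -- the coefficient of `e`
    obtain ⟨t₁, ht₁, b₁, hb₁, e5, e6⟩ : ∃ t₁ ∈ S.degS l i, ∃ b₁ : A',
        (i = 0 → b₁ = 0) ∧ S.d t₁ = s.2 ∧ (a.2 - φ.f t₁ = C.d b₁ ∧
          ∀ j, i = j + 1 → b₁ ∈ C.degS l j) := by
      rcases Nat.lt_or_ge i l with h1 | h1
      · have h2 : a.2 = 0 := by
          rcases C.mem_degS ha2 with h2 | ⟨j, h2, -⟩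
          · exact h2
          · omega
        have h3 : s.2 = 0 := by
          rcases S.mem_degS hs2 with h3 | ⟨j, h3, h4⟩
          · exact h3
          · obtain rfl : j = 0 := by omega
            refine hφ.1 _ h4 e4 ?_
            rw [← e2, h2, map_zero]
        exact ⟨0, Submodule.zero_mem _, 0, fun _ => rfl, by rw [h3, map_zero], by
          rw [h2, map_zero, map_zero, sub_zero], fun j _ => Submodule.zero_mem _⟩
      · obtain ⟨i', rfl⟩ : ∃ i', i = i' + l := ⟨i - l, by omega⟩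
        have h2 : a.2 ∈ C.deg i' := by rwa [C.degS_add] at ha2
        have h3 : s.2 ∈ S.deg (i' + 1) := by
          rwa [show i' + l + 1 = (i' + 1) + l by ring, S.degS_add] at hs2
        obtain ⟨t, ht, h4, h5⟩ := hφ.2 i' (by omega) a.2 h2 s.2 h3 e2 e4
        rcases i' with _ | i'
        · refine ⟨t, by rwa [S.degS_add], 0, fun _ => rfl, h4, ?_, fun j _ =>
            Submodule.zero_mem _⟩
          rw [map_zero]
          exact h5
        · obtain ⟨b, hb, h6⟩ := C.mem_B_succ.1 h5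
          refine ⟨t, by rwa [S.degS_add], b, fun h7 => by omega, h4, h6.symm, fun j hj => ?_⟩
          obtain rfl : j = i' + l := by omega
          rwa [C.degS_add]
    -- the remaining part
    have hdeg : C.sg b₁ * x' ∈ C.deg i := by
      rcases i with _ | i
      · rw [hb₁ rfl, map_zero, zero_mul]
        exact Submodule.zero_mem _
      · rcases C.mem_degS (e6.2 i rfl) with h1 | ⟨j, rfl, h1⟩
        · rw [h1, map_zero, zero_mul]
          exact Submodule.zero_mem _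
        · rw [C.sg_deg h1, smul_mul_assoc]
          refine Submodule.smul_mem _ _ ?_
          have := C.mul_mem h1 hx'
          rwa [← add_assoc] at this
    have hdeg' : S.sg t₁ * x ∈ S.deg (i + 1) := by
      rcases S.mem_degS ht₁ with h1 | ⟨j, rfl, h1⟩
      · rw [h1, map_zero, zero_mul]
        exact Submodule.zero_mem _
      · rw [S.sg_deg h1, smul_mul_assoc]
        refine Submodule.smul_mem _ _ ?_
        have := S.mul_mem h1 hx
        rwa [← add_assoc] at this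
    have c1 : C.d (C.sg b₁ * x') = -(C.sg (a.2 - φ.f t₁) * x') := by
      rw [C.leib, hdx', mul_zero, add_zero, e6.1, C.sg_d, neg_mul, neg_neg]
    have c2 : S.d (S.sg t₁ * x) = -(S.sg s.2 * x) := by
      rw [S.leib, hdx, mul_zero, add_zero, ← e5, S.sg_d, neg_mul, neg_neg]
    obtain ⟨t₀, ht₀, e7, e8⟩ := hφ.2 i hi (a.1 - C.sg b₁ * x') (Submodule.sub_mem _ ha1 hdeg)
      (s.1 - S.sg t₁ * x) (Submodule.sub_mem _ hs1 hdeg') (by
        rw [map_sub C.d, c1, map_sub C.sg, map_sub φ.f, map_mul φ.f, φ.sg, h, ← e1, sub_mul]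
        abel) (by
        rw [map_sub, c2, sub_neg_eq_add]
        exact e3)
    refine ⟨⟨t₀, t₁⟩, ⟨ht₀, ht₁⟩, ?_, ?_⟩
    · ext
      · change S.d t₀ + S.sg t₁ * x = s.1
        rw [e7, sub_add_cancel]
      · exact e5
    · rcases i with _ | i
      · have h9 : a.1 - C.sg b₁ * x' - φ.f t₀ = 0 := e8
        rw [hb₁ rfl, map_zero, zero_mul, sub_zero] at h9
        have h10 := e6.1
        rw [hb₁ rfl, map_zero] at h10
        have h11 : a - (φ.exMap hl hx hdx hx' hdx' h).f ⟨t₀, t₁⟩ = 0 := by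
          ext
          · exact h9
          · exact h10
        rw [h11]
        exact Submodule.zero_mem _
      · obtain ⟨b₀, hb₀, h9⟩ := C.mem_B_succ.1 e8
        refine ⟨⟨b₀, b₁⟩, ⟨hb₀, e6.2 i rfl⟩, ?_⟩
        ext
        · change C.d b₀ + C.sg b₁ * x' = a.1 - φ.f t₀
          rw [h9]
          abel
        · exact e6.1.symm

include h in
/-- **The one-generator lemma**: a nontrivial relative class remains nontrivial. -/
theorem New.ex {n : ℕ} (hφ : RelLt φ n) {a : A'} {s : A} (hN : New φ n a s) :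
    New (φ.exMap hl hx hdx hx' hdx' h) n (Ex.inl C a) (Ex.inl S s) := by
  have hl1 : 1 ≤ l := by
    obtain ⟨m, rfl⟩ := hl
    omega
  rintro ⟨t, ⟨ht0, ht1⟩, h1, h2⟩
  have e1 : S.d t.1 + S.sg t.2 * x = s := congrArg Ex.fst h1
  have e2 : S.d t.2 = 0 := congrArg Ex.snd h1
  rcases n with _ | n
  · -- degree `0`
    have h3 : t.2 = 0 := by
      rcases S.mem_degS ht1 with h3 | ⟨j, h3, -⟩
      · exact h3
      · omega
    refine hN ⟨t.1, ht0, ?_, ?_⟩
    · rw [← e1, h3, map_zero, zero_mul, add_zero]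
    · exact congrArg Ex.fst (show Ex.inl C a - (φ.exMap hl hx hdx hx' hdx' h).f t = 0 from h2)
  obtain ⟨b, ⟨hb0, hb1⟩, h3⟩ := h2
  have e3 : C.d b.1 + C.sg b.2 * x' = a - φ.f t.1 := congrArg Ex.fst h3
  have e4 : C.d b.2 = 0 - φ.f t.2 := congrArg Ex.snd h3
  rw [zero_sub] at e4
  -- the coefficient of `e`
  obtain ⟨t₂, ht₂, b₂, hb₂, e5, e6⟩ : ∃ t₂ ∈ S.degS l n, ∃ b₂ : A',
      (n = 0 → b₂ = 0) ∧ S.d t₂ = -t.2 ∧ (b.2 - φ.f t₂ = C.d b₂ ∧
        ∀ j, n = j + 1 → b₂ ∈ C.degS l j) := by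
    rcases Nat.lt_or_ge n l with h4 | h4
    · have h5 : b.2 = 0 := by
        rcases C.mem_degS hb1 with h5 | ⟨j, h5, -⟩
        · exact h5
        · omega
      have h6 : t.2 = 0 := by
        rcases S.mem_degS ht1 with h6 | ⟨j, h6, h7⟩
        · exact h6
        · obtain rfl : j = 0 := by omega
          refine hφ.1 _ h7 e2 ?_
          rw [h5, map_zero] at e4
          exact (neg_eq_zero.1 e4.symm)
      exact ⟨0, Submodule.zero_mem _, 0, fun _ => rfl, by rw [h6, map_zero, neg_zero], by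
        rw [h5, map_zero, map_zero, sub_zero], fun j _ => Submodule.zero_mem _⟩
    · obtain ⟨n', rfl⟩ : ∃ n', n = n' + l := ⟨n - l, by omega⟩
      have h5 : b.2 ∈ C.deg n' := by rwa [C.degS_add] at hb1
      have h6 : -t.2 ∈ S.deg (n' + 1) := by
        rw [show n' + l + 1 = (n' + 1) + l by ring, S.degS_add] at ht1
        exact Submodule.neg_mem _ ht1
      obtain ⟨t₂, ht₂, h7, h8⟩ := hφ.2 n' (by omega) b.2 h5 (-t.2) h6 (by rw [e4, map_neg])
        (by rw [map_neg, e2, neg_zero])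
      rcases n' with _ | n'
      · refine ⟨t₂, by rwa [S.degS_add], 0, fun _ => rfl, h7, ?_, fun j _ =>
          Submodule.zero_mem _⟩
        rw [map_zero]
        exact h8
      · obtain ⟨b₂, hb₂, h9⟩ := C.mem_B_succ.1 h8
        refine ⟨t₂, by rwa [S.degS_add], b₂, fun h7 => by omega, h7, h9.symm, fun j hj => ?_⟩
        obtain rfl : j = n' + l := by omega
        rwa [C.degS_add]
  have hdeg' : S.sg t₂ * x ∈ S.deg (n + 1) := by
    rcases S.mem_degS ht₂ with h4 | ⟨j, rfl, h4⟩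
    · rw [h4, map_zero, zero_mul]
      exact Submodule.zero_mem _
    · rw [S.sg_deg h4, smul_mul_assoc]
      refine Submodule.smul_mem _ _ ?_
      have := S.mul_mem h4 hx
      rwa [← add_assoc] at this
  have hdeg : C.sg b₂ * x' ∈ C.deg n := by
    rcases n with _ | n
    · rw [hb₂ rfl, map_zero, zero_mul]
      exact Submodule.zero_mem _
    · rcases C.mem_degS (e6.2 n rfl) with h4 | ⟨j, rfl, h4⟩
      · rw [h4, map_zero, zero_mul]
        exact Submodule.zero_mem _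
      · rw [C.sg_deg h4, smul_mul_assoc]
        refine Submodule.smul_mem _ _ ?_
        have := C.mul_mem h4 hx'
        rwa [← add_assoc] at this
  have c2 : S.d (S.sg t₂ * x) = S.sg t.2 * x := by
    rw [S.leib, hdx, mul_zero, add_zero, ← neg_neg (S.d (S.sg t₂)), ← S.sg_d, e5, map_neg, neg_neg]
  have c1 : C.d (C.sg b₂ * x') = -(C.sg (b.2 - φ.f t₂) * x') := by
    rw [C.leib, hdx', mul_zero, add_zero, e6.1, C.sg_d, neg_mul, neg_neg]
  refine hN ⟨t.1 + S.sg t₂ * x, Submodule.add_mem _ ht0 hdeg', by rw [map_add, c2, e1],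
    b.1 - C.sg b₂ * x', Submodule.sub_mem _ hb0 hdeg, ?_⟩
  rw [map_sub C.d, c1, map_sub C.sg, map_add φ.f, map_mul φ.f, φ.sg, h, ← sub_sub, ← e3, sub_mul]
  abel

include h in
theorem QIso.ex (hφ : QIso φ) : QIso (φ.exMap hl hx hdx hx' hdx' h) :=
  QIso.of_relLt fun n => (hφ.relLt n).ex φ hl hx hdx hx' hdx' h

end Ex

end Vale.Agent.P216.V706
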