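import Vale.Agent.P216.V706.B1.Core
import Vale.Agent.P216.V706.B1.Phi
import Vale.Agent.P216.V921.Fin

/-!
# P216-V, D4: the tower over the piece and its push-forward
-/

open MvPolynomial
open Vale.Agent.P216.V609 Vale.Agent.P216.V651 Vale.Agent.P216.V775 Vale.Agent.P216.V921
open Vale.Agent.P216.H285V (toDga)

universe v w'

namespace Vale.Agent.P216.V706

section

variable {k : Type w'} [Field k] {σ : Type} [Fintype σ] [DecidableEq σ]

omit [Fintype σ] [DecidableEq σ] in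
/-- evaluation at the variables of the piece -/
theorem ev_xx {x : σ → Subalgebra.center k (Dat.Car k σ)}
    (hx : ∀ j, (x j : Dat.Car k σ) = Dat.xx k j) (R : MvPolynomial σ k) :
    ev x R = TrivSqZeroExt.inl R := by
  induction R using MvPolynomial.induction_on with
  | C a =>
    rw [ev_C]
    rfl
  | add p q hp hq => rw [map_add, hp, hq, TrivSqZeroExt.inl_add]
  | mul_X p i hp =>
    rw [map_mul, hp, ev_X, hx, TrivSqZeroExt.inl_mul]
    rfl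

/-- **The Koszul system of the piece.** -/
noncomputable def pKS (D : Dat k σ) (hJ : D.J = ∅) : KS D.cd D.w D.f D.Q := by
  classical
  exact
  { x := fun j => Dat.xx k j
    hx := fun j => D.xx_mem (by rw [hJ]; exact Set.notMem_empty j)
    y := if D.P = 0 then Dat.yy k σ else 0
    hy := by
      split_ifs
      · exact D.yy_mem
      · exact Submodule.zero_mem _
    dy := by
      split_ifs with h
      · refine TrivSqZeroExt.ext ?_ ?_
        · change (D.dd _).fst = _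
          rw [Dat.dd_fst, h, zero_mul]
          rfl
        · change (D.dd _).snd = _
          rw [Dat.dd_snd, Dat.yy_fst, map_zero]
          rfl
      · exact map_zero _
    dx := fun j => by
      rw [ev_xx (fun _ => rfl)]
      split_ifs with h
      · refine TrivSqZeroExt.ext ?_ ?_
        · change (D.dd _).fst = _
          rw [Dat.dd_fst, h, zero_mul, TrivSqZeroExt.fst_mul, Dat.yy_fst, zero_mul]
        · change (D.dd _).snd = _
          rw [Dat.dd_snd, Dat.xx_fst, D.q_X, TrivSqZeroExt.snd_mul, Dat.yy_fst, zero_smul,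
            zero_add, Dat.yy_snd, TrivSqZeroExt.fst_inl, MulOpposite.smul_eq_mul_unop,
            MulOpposite.unop_op, one_mul]
      · have hQ : D.Q j = 0 := (D.PQ.resolve_left h) j
        rw [zero_mul]
        refine TrivSqZeroExt.ext ?_ ?_
        · change (D.dd _).fst = _
          rw [Dat.dd_fst, Dat.xx_snd, mul_zero]
          rfl
        · change (D.dd _).snd = _
          rw [Dat.dd_snd, Dat.xx_fst, D.q_X, hQ]
          rfl }

theorem pKS_x (D : Dat k σ) (hJ : D.J = ∅) (j : σ) : (pKS D hJ).x j = Dat.xx k j := rfl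

theorem pKS_y_zero (D : Dat k σ) (hJ : D.J = ∅) (h : D.P = 0) : (pKS D hJ).y = Dat.yy k σ := by
  unfold pKS
  exact if_pos h

theorem pKS_y_ne (D : Dat k σ) (hJ : D.J = ∅) (h : D.P ≠ 0) : (pKS D hJ).y = 0 := by
  unfold pKS
  exact if_neg h

end

/-- **D4**: the statement, for two closed odd elements `c₁`, `c₂` of a cdga `C`. -/
structure D4 {k A : Type*} [Field k] [Ring A] [Algebra k A] (C : Cdga k A) (h2 : (2 : k) ≠ 0)
    (f f₂ : ℕ) (c₁ c₂ : A) : Prop where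
  mem₁ : c₁ ∈ C.deg (2 * f + 1)
  d₁ : C.d c₁ = 0
  mem₂ : c₂ ∈ C.deg (2 * f₂ + 1)
  d₂ : C.d c₂ = 0
  zero : ∀ z ∈ C.Z 0, ∃ c : k, z = c • 1
  low : ∀ j, 0 < j → j < 2 * f + 1 → C.Z j ≤ C.B j
  not₁ : c₁ ∉ C.B (2 * f + 1)
  zero' : ∀ z ∈ (pol C (even_two_mul f) h2 mem₁ d₁).Z 0, ∃ c : k, z = c • 1
  low' : ∀ j, 0 < j → j < 2 * f₂ + 1 →
    (pol C (even_two_mul f) h2 mem₁ d₁).Z j ≤ (pol C (even_two_mul f) h2 mem₁ d₁).B j
  not₂ : Polynomial.C c₂ ∉ (pol C (even_two_mul f) h2 mem₁ d₁).B (2 * f₂ + 1)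

/-- D4 is invariant under isomorphisms. -/
theorem D4.iso {k A A' : Type*} [Field k] [Ring A] [Algebra k A] [Ring A'] [Algebra k A']
    {C : Cdga k A} {C' : Cdga k A'} {h2 : (2 : k) ≠ 0} {f f₂ : ℕ} {c₁ c₂ : A}
    (h : D4 C h2 f f₂ c₁ c₂) (θ : Cdga.Hom C C') (θ' : Cdga.Hom C' C)
    (h1 : ∀ a, θ'.f (θ.f a) = a) (h3 : ∀ a, θ.f (θ'.f a) = a) {c₁' c₂' : A'}
    (hc₁ : θ.f c₁ = c₁') (hc₂ : θ.f c₂ = c₂') : D4 C' h2 f f₂ c₁' c₂' := by
  subst hc₁ hc₂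
  have m₁ := θ.deg h.mem₁
  have d₁ : C'.d (θ.f c₁) = 0 := by rw [← θ.d, h.d₁, map_zero]
  have d₂ : C'.d (θ.f c₂) = 0 := by rw [← θ.d, h.d₂, map_zero]
  let Θ := polMap θ (even_two_mul f) h2 h.mem₁ h.d₁ m₁ d₁ rfl
  let Θ' := polMap θ' (even_two_mul f) h2 m₁ d₁ h.mem₁ h.d₁ (h1 c₁)
  have h4 : ∀ a, Θ'.f (Θ.f a) = a := fun a => by
    change Polynomial.mapAlgHom θ'.f (Polynomial.mapAlgHom θ.f a) = a
    ext i
    rw [Polynomial.coeff_mapAlgHom_apply, Polynomial.coeff_mapAlgHom_apply, h1]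
  have h5 : ∀ a, Θ.f (Θ'.f a) = a := fun a => by
    change Polynomial.mapAlgHom θ.f (Polynomial.mapAlgHom θ'.f a) = a
    ext i
    rw [Polynomial.coeff_mapAlgHom_apply, Polynomial.coeff_mapAlgHom_apply, h3]
  refine ⟨m₁, d₁, θ.deg h.mem₂, d₂, fun z hz => ?_, fun j hj hjn z hz => ?_, fun hB => ?_,
    fun z hz => ?_, fun j hj hjn z hz => ?_, fun hB => ?_⟩
  · obtain ⟨c, hc⟩ := h.zero _ (θ'.map_Z hz)
    refine ⟨c, ?_⟩
    rw [← h3 z, hc, map_smul, map_one]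
  · have := θ.map_B (h.low j hj hjn (θ'.map_Z hz))
    rwa [h3] at this
  · have := θ'.map_B hB
    rw [h1] at this
    exact h.not₁ this
  · obtain ⟨c, hc⟩ := h.zero' _ (Θ'.map_Z hz)
    refine ⟨c, ?_⟩
    rw [← h5 z, hc, map_smul, map_one]
  · have := Θ.map_B (h.low' j hj hjn (Θ'.map_Z hz))
    rwa [h5] at this
  · have := Θ'.map_B hB
    have h6 : Θ'.f (Polynomial.C (θ.f c₂)) = Polynomial.C c₂ := by
      change Polynomial.mapAlgHom θ'.f (Polynomial.C (θ.f c₂)) = _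
      rw [Polynomial.coe_mapAlgHom, Polynomial.map_C]
      exact congrArg Polynomial.C (h1 c₂)
    rw [h6] at this
    exact h.not₂ this

section

variable {k : Type w'} [Field k] {X : CD.{v} k} {h2 : (2 : k) ≠ 0} {f₂ : ℕ}
  (T₀ : Two (toDga h2 X.C) f₂)

theorem Two.phi_yy : T₀.phi.f (Dat.yy k T₀.σ) = T₀.y := by
  rw [T₀.phi_apply, Dat.yy_fst, Dat.yy_snd, map_zero, map_one, mul_one, zero_add]

theorem Two.phi_xx (j : T₀.σ) : T₀.phi.f (Dat.xx k j) = T₀.x j := by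
  rw [T₀.phi_apply, Dat.xx_fst, Dat.xx_snd, map_zero, mul_zero, add_zero, ev_X]

theorem Two.phi_inl (R : MvPolynomial T₀.σ k) :
    T₀.phi.f (TrivSqZeroExt.inl R) = ev T₀.x R := by
  rw [T₀.phi_apply, TrivSqZeroExt.fst_inl, TrivSqZeroExt.snd_inl, map_zero, mul_zero, add_zero]

/-- **D4, for the push-forward of the tower over the piece.** `F₁`, `F₂` are primitives of `P`,
`P₂` in the tower over the piece, `F₁` is in the ideal of the new generators. -/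
theorem D4_push [CharZero k] {q : T₀.σ → T₀.σ → MvPolynomial T₀.σ k} {f : ℕ}
    {Q : T₀.σ → MvPolynomial T₀.σ k} (hq : QD T₀.dat.w f Q q) {S : KS T₀.dat.cd T₀.dat.w f Q}
    (hx : ∀ j, S.x j = Dat.xx k j) {e : T₀.σ → T₀.dat.cd.A} {T : Tw T₀.dat.cd}
    {ê : T₀.σ → T.top.A} (h : KTw q S ∅ e T ê) {F₁ F₂ : T.top.A}
    (hF₁ : F₁ ∈ T.top.C.deg (2 * T₀.f + 1))
    (dF₁ : T.top.C.d F₁ = T.inc.f (TrivSqZeroExt.inl T₀.P))
    (hπ : ∀ (D' : Dat k T₀.σ) (π : Cdga.Hom T.top.C D'.cdga), (∀ j, π.f (ê j) = 0) → π.f F₁ = 0)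
    (hF₂ : F₂ ∈ T.top.C.deg (2 * f₂ + 1))
    (dF₂ : T.top.C.d F₂ = T.inc.f (TrivSqZeroExt.inl T₀.P₂)) :
    D4 (T.push (Y := X) T₀.phi).top.C h2 T₀.f f₂
      ((T.push (Y := X) T₀.phi).inc.f T₀.y - (T.map (Y := X) T₀.phi).f F₁)
      ((T.push (Y := X) T₀.phi).inc.f T₀.y₂ - (T.map (Y := X) T₀.phi).f F₂) := by
  obtain ⟨D', hJ', hf', π, h3, -, h4, h5⟩ := tower_final T₀.dat rfl hq hx h
  let φ : T₀.dat.cd.Hm X := T₀.phi
  have hφ : RelLt φ (2 * f₂ + 1) := T₀.relLt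
  have hN : New φ (2 * f₂ + 1) T₀.y₂ (TrivSqZeroExt.inl T₀.P₂) := T₀.new'
  have hφ' := hφ.map T
  have hN' := hN.map T φ hφ
  -- the element `b₁` of the tower over the piece
  have hyy : T.inc.f (Dat.yy k T₀.σ) ∈ T.top.C.deg (2 * T₀.f + 1) := T.inc.deg T₀.dat.yy_mem
  have dyy : T.top.C.d (T.inc.f (Dat.yy k T₀.σ)) = T.inc.f (TrivSqZeroExt.inl T₀.P) := by
    rw [← T.inc.d]
    congr 1
    refine TrivSqZeroExt.ext ?_ ?_
    · change (T₀.dat.dd _).fst = _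
      rw [Dat.dd_fst, Dat.yy_snd, mul_one, TrivSqZeroExt.fst_inl]
      rfl
    · change (T₀.dat.dd _).snd = _
      rw [Dat.dd_snd, Dat.yy_fst, map_zero, TrivSqZeroExt.snd_inl]
  have hb₁ : T.inc.f (Dat.yy k T₀.σ) - F₁ ∈ T.top.C.deg (2 * T₀.f + 1) :=
    Submodule.sub_mem _ hyy hF₁
  have db₁ : T.top.C.d (T.inc.f (Dat.yy k T₀.σ) - F₁) = 0 := by
    rw [map_sub, dyy, dF₁, sub_self]
  have hπy : π.f (T.inc.f (Dat.yy k T₀.σ) - F₁) = Dat.yy k T₀.σ := by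
    rw [map_sub, h4, hπ D' π h3, sub_zero]
  have hacy := tower_acy hJ' h5 (even_two_mul T₀.f) h2 (by rw [hf']; rfl) hb₁ db₁ hπy (2 * f₂ + 1)
  have h0 : ∀ z ∈ T.top.C.Z 0, ∃ c : k, z = c • 1 := by
    intro z hz
    have hz2 : T.top.C.d z = 0 := hz.2
    have hf := D'.f_pos
    obtain ⟨c, hc⟩ : ∃ c : k, π.f z = c • 1 := by
      rcases Dat.univ_deg hJ' (π.deg hz.1) with h6 | ⟨-, h6⟩ | ⟨h6, -⟩
      · exact ⟨0, by rw [h6, zero_smul]⟩
      · exact h6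
      · omega
    refine ⟨c, sub_eq_zero.1 ((relLt_of_qiso (h5 0)).1 (z - c • 1) ?_ ?_ ?_)⟩
    · exact Submodule.sub_mem _ hz.1 (Submodule.smul_mem _ c T.top.C.one_mem)
    · rw [map_sub, hz2, map_smul, T.top.C.d_one, smul_zero, sub_zero]
    · rw [map_sub, hc, map_smul, map_one, sub_self]
  have e1 : (T.map φ).f (T.inc.f (Dat.yy k T₀.σ) - F₁) =
      (T.push φ).inc.f T₀.y - (T.map φ).f F₁ := by
    rw [map_sub, T.map_inc φ]
    congr 2
    exact T₀.phi_yy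
  have m₁ : (T.push φ).inc.f T₀.y - (T.map φ).f F₁ ∈ (T.push φ).top.C.deg (2 * T₀.f + 1) := by
    rw [← e1]
    exact (T.map φ).deg hb₁
  have d₁ : (T.push φ).top.C.d ((T.push φ).inc.f T₀.y - (T.map φ).f F₁) = 0 := by
    rw [← e1, ← (T.map φ).d, db₁, map_zero]
  have hfpos := T₀.f_pos
  have hfle := T₀.f_le
  obtain ⟨c1, c2, c3, c4, c5, c6⟩ := core (T.map φ) (by omega) (even_two_mul T₀.f)
    (by omega) h2 hφ' hN' hb₁ db₁ hF₂ dF₂ hacy h0 m₁ d₁ e1 rfl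
  refine ⟨m₁, d₁, ?_, ?_, c5, c3, c4, c6, c1, c2⟩
  · exact Submodule.sub_mem _ ((T.push φ).inc.deg T₀.y₂_mem) ((T.map φ).deg hF₂)
  · have h6 : X.C.d T₀.y₂ = ev T₀.x T₀.P₂ := T₀.d_y₂
    have h7 : (T.map φ).f (T.inc.f (TrivSqZeroExt.inl T₀.P₂)) =
        (T.push φ).inc.f (ev T₀.x T₀.P₂) := by
      rw [T.map_inc φ]
      exact congrArg _ (T₀.phi_inl _)
    rw [map_sub, ← (T.push φ).inc.d, h6, ← (T.map φ).d, dF₂, h7, sub_self]

end

end Vale.Agent.P216.V706
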